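import Vale.Agent.P370.Final
import Vale.Agent.P370.Dens

namespace Vale.Agent.Results.P370.Hard

open Vale.Agent.P370

theorem result : ∃ c : ℕ, 0 < c ∧ ∀ Y Z : Set (List Bool), InQMA Y Z →
    ∃ f : List Bool → Inst, PolyTime id Inst.code f ∧ (∀ x, (f x).Valid c) ∧
      (∀ x ∈ Y, (f x).ground ≤ (((f x).a : ℝ) : EReal)) ∧
      ∀ x ∈ Z, (((f x).b : ℝ) : EReal) ≤ (f x).ground :=
  ⟨1, one_pos, fun Y Z h => by simpa only [Inst.ground_eq] using hard Y Z h⟩

end Vale.Agent.Results.P370.Hard
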